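import Vale.Agent.P255.Main.Assembly

/-!
# P255: a closed manifold with a metric without conjugate points and no metric of nonpositive
curvature
-/

namespace Vale.Agent.Results.P255.NoConjVsNonpos

theorem result : Vale.Agent.P255.Answer := Vale.Agent.P255.answer

end Vale.Agent.Results.P255.NoConjVsNonpos
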